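import Mathlib

/-!
# Row 160: closing the differential inequalities (abstract)
-/

set_option autoImplicit false

open MeasureTheory Filter Topology Set

namespace Crest.Agent.H14

/-- comparison of interval integrals without integrability of the smaller function -/
theorem intInt_mono_nonneg {f g : ℝ → ℝ} {a b : ℝ} (hab : a ≤ b)
    (hf : ∀ r ∈ Ioc a b, 0 ≤ f r) (hfg : ∀ r ∈ Ioc a b, f r ≤ g r)
    (hg : IntervalIntegrable g volume a b) : ∫ r in a..b, f r ≤ ∫ r in a..b, g r := by
  rw [intervalIntegral.integral_of_le hab, intervalIntegral.integral_of_le hab]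
  apply integral_mono_of_nonneg
  · rw [EventuallyLE, ae_restrict_iff' measurableSet_Ioc]
    exact Eventually.of_forall (fun r hr => hf r hr)
  · exact (intervalIntegrable_iff_integrableOn_Ioc_of_le hab).mp hg
  · rw [EventuallyLE, ae_restrict_iff' measurableSet_Ioc]
    exact Eventually.of_forall (fun r hr => hfg r hr)

/-- a Gronwall inequality (losing a factor `2`) without measurability assumptions -/
theorem gronwall_gen {F G K κ : ℝ → ℝ} {a b δ M : ℝ} (hδ : 0 < δ)
    (hFM : ∀ r ∈ Icc a b, F r ≤ M) (hK : ∀ r ∈ Icc a b, 0 ≤ K r)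
    (hKc : ContinuousOn K (Icc a b)) (hκ : ∀ r ∈ Icc a b, HasDerivAt κ (K r) r) (hκa : κ a = 0)
    (hG0 : ∀ r ∈ Icc a b, 0 ≤ G r) (hG : ∀ r ∈ Icc a b, G r ≤ K r * max (F r) δ)
    (h : ∀ t ∈ Icc a b, F t ≤ F a + ∫ r in a..t, G r) :
    ∀ t ∈ Icc a b, max (F t) δ ≤ 2 * max (F a) δ * Real.exp (2 * κ t) := by
  intro t0 ht0
  have hab : a ≤ b := ht0.1.trans ht0.2
  have haI : a ∈ Icc a b := ⟨le_refl _, hab⟩
  -- monotonicity of κ
  have hκ0 : ∀ t ∈ Icc a b, 0 ≤ κ t := by
    intro t ht
    have hsub : Icc a t ⊆ Icc a b := Icc_subset_Icc_right ht.2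
    have h1 : ∫ r in a..t, K r = κ t - κ a := by
      apply intervalIntegral.integral_eq_sub_of_hasDerivAt
      · intro r hr
        rw [uIcc_of_le ht.1] at hr
        exact hκ r (hsub hr)
      · apply ContinuousOn.intervalIntegrable
        rw [uIcc_of_le ht.1]
        exact hKc.mono hsub
    have h2 : 0 ≤ ∫ r in a..t, K r :=
      intervalIntegral.integral_nonneg ht.1 (fun r hr => hK r (hsub hr))
    rw [h1, hκa] at h2
    linarith
  set g : ℝ → ℝ := fun t => max (F t) δ * Real.exp (-(2 * κ t)) with hg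
  set A : Set ℝ := g '' Icc a b with hA
  have hbdd : BddAbove A := by
    refine ⟨max M δ, ?_⟩
    rintro _ ⟨t, ht, rfl⟩
    simp only [hg]
    have h1 : max (F t) δ ≤ max M δ := max_le_max (hFM t ht) le_rfl
    have h2 : Real.exp (-(2 * κ t)) ≤ 1 := by
      rw [Real.exp_le_one_iff]
      have := hκ0 t ht
      linarith
    have h3 : 0 < max (F t) δ := lt_max_of_lt_right hδ
    calc max (F t) δ * Real.exp (-(2 * κ t)) ≤ max (F t) δ * 1 :=
          mul_le_mul_of_nonneg_left h2 h3.le
      _ ≤ max M δ := by rw [mul_one]; exact h1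
  set S := sSup A with hS
  have hSle : ∀ t ∈ Icc a b, g t ≤ S := fun t ht => le_csSup hbdd ⟨t, ht, rfl⟩
  have hS0 : 0 ≤ S := by
    have h1 := hSle a haI
    have h2 : 0 ≤ g a := by
      simp only [hg]
      exact mul_nonneg (lt_max_of_lt_right hδ).le (Real.exp_pos _).le
    linarith
  have key : ∀ t ∈ Icc a b, g t ≤ max (F a) δ + S / 2 := by
    intro t ht
    have hsub : Icc a t ⊆ Icc a b := Icc_subset_Icc_right ht.2
    have h1 : ∫ r in a..t, G r ≤ ∫ r in a..t, K r * (S * Real.exp (2 * κ r)) := by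
      apply intInt_mono_nonneg ht.1
      · intro r hr
        exact hG0 r (hsub (Ioc_subset_Icc_self hr))
      · intro r hr'
        have hr := Ioc_subset_Icc_self hr'
        apply (hG r (hsub hr)).trans
        apply mul_le_mul_of_nonneg_left _ (hK r (hsub hr))
        have h2 := hSle r (hsub hr)
        simp only [hg] at h2
        rw [Real.exp_neg] at h2
        have h3 := Real.exp_pos (2 * κ r)
        rw [← div_eq_mul_inv, div_le_iff₀ h3] at h2
        exact h2
      · apply ContinuousOn.intervalIntegrable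
        rw [uIcc_of_le ht.1]
        apply ContinuousOn.mul (hKc.mono hsub)
        apply ContinuousOn.mul continuousOn_const
        apply Real.continuous_exp.comp_continuousOn
        apply ContinuousOn.mul continuousOn_const
        intro r hr
        exact (hκ r (hsub hr)).continuousAt.continuousWithinAt
    have h2 : ∫ r in a..t, K r * (S * Real.exp (2 * κ r)) =
        S / 2 * Real.exp (2 * κ t) - S / 2 * Real.exp (2 * κ a) := by
      apply intervalIntegral.integral_eq_sub_of_hasDerivAt (f := fun r => S / 2 * Real.exp (2 * κ r))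
      · intro r hr
        rw [uIcc_of_le ht.1] at hr
        have h3 := ((hκ r (hsub hr)).const_mul 2).exp.const_mul (S / 2)
        refine h3.congr_deriv ?_
        ring
      · apply ContinuousOn.intervalIntegrable
        rw [uIcc_of_le ht.1]
        apply ContinuousOn.mul (hKc.mono hsub)
        apply ContinuousOn.mul continuousOn_const
        apply Real.continuous_exp.comp_continuousOn
        apply ContinuousOn.mul continuousOn_const
        intro r hr
        exact (hκ r (hsub hr)).continuousAt.continuousWithinAt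
    rw [hκa, mul_zero, Real.exp_zero, mul_one] at h2
    have h3 := h t ht
    have h4 : F t ≤ F a + S / 2 * Real.exp (2 * κ t) := by linarith
    have h5 : 1 ≤ Real.exp (2 * κ t) := by
      apply Real.one_le_exp
      have := hκ0 t ht
      linarith
    have h6 : max (F t) δ ≤ (max (F a) δ + S / 2) * Real.exp (2 * κ t) := by
      apply max_le
      · have h7 : F a ≤ max (F a) δ := le_max_left _ _
        have h8 : 0 ≤ max (F a) δ := (lt_max_of_lt_right hδ).le
        have h9 : max (F a) δ ≤ max (F a) δ * Real.exp (2 * κ t) := le_mul_of_one_le_right h8 h5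
        nlinarith
      · have h7 : δ ≤ max (F a) δ := le_max_right _ _
        have h8 : 0 ≤ max (F a) δ + S / 2 := by
          have := (lt_max_of_lt_right hδ : 0 < max (F a) δ).le
          linarith
        have h9 : max (F a) δ + S / 2 ≤ (max (F a) δ + S / 2) * Real.exp (2 * κ t) :=
          le_mul_of_one_le_right h8 h5
        linarith
    simp only [hg]
    rw [Real.exp_neg, ← div_eq_mul_inv, div_le_iff₀ (Real.exp_pos _)]
    exact h6
  have hSfin : S ≤ max (F a) δ + S / 2 := by
    have hne : A.Nonempty := ⟨g a, a, haI, rfl⟩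
    apply csSup_le hne
    rintro _ ⟨t, ht, rfl⟩
    exact key t ht
  have hS2 : S ≤ 2 * max (F a) δ := by linarith
  have h1 := (hSle t0 ht0).trans hS2
  simp only [hg] at h1
  rw [Real.exp_neg, ← div_eq_mul_inv, div_le_iff₀ (Real.exp_pos _)] at h1
  exact h1

/-- constant kernel -/
theorem gronwall_const {F G : ℝ → ℝ} {a b c δ M : ℝ} (hc : 0 ≤ c) (hδ : 0 < δ)
    (hFM : ∀ r ∈ Icc a b, F r ≤ M)
    (hG0 : ∀ r ∈ Icc a b, 0 ≤ G r) (hG : ∀ r ∈ Icc a b, G r ≤ c * max (F r) δ)
    (h : ∀ t ∈ Icc a b, F t ≤ F a + ∫ r in a..t, G r) :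
    ∀ t ∈ Icc a b, max (F t) δ ≤ 2 * max (F a) δ * Real.exp (2 * (c * (t - a))) := by
  refine gronwall_gen (K := fun _ => c) (κ := fun t => c * (t - a)) hδ hFM (fun _ _ => hc)
    continuousOn_const ?_ (by simp) hG0 hG h
  intro r _
  have h1 : HasDerivAt (fun t : ℝ => c * (t - a)) (c * 1) r :=
    ((hasDerivAt_id' r).sub_const a).const_mul c
  simpa using h1

/-- halving steps with constant kernel -/
theorem advance {F : ℝ → ℝ} {T M C L s X0 Y : ℝ} (hC : 1 ≤ C) (hL : 1 ≤ L) (hY : 3 ≤ Y)
    (hFM : ∀ r ∈ Icc s T, F r ≤ M)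
    (h : ∀ X, 2 ≤ X → X ≤ X0 → ∃ G : ℝ → ℝ,
      (∀ r ∈ Icc s T, 0 ≤ G r ∧ G r ≤ C * X * L * max (F r) (Real.exp (-X))) ∧
      ∀ a ∈ Icc s T, ∀ b ∈ Icc a T, F b ≤ F a + ∫ r in a..b, G r)
    (hs : F s ≤ Real.exp (-X0)) (m : ℕ) (hm : 2 ^ m * Y ≤ X0) :
    ∀ j : ℕ, j ≤ m → ∀ t ∈ Icc s T, t ≤ s + j * (1 / (8 * C * L)) →
      F t ≤ Real.exp (-(X0 / 2 ^ j)) := by
  have hCL : 0 < 8 * C * L := by positivity
  intro j
  induction j with
  | zero =>
    intro _ t ht ht2
    have : t = s := by
      simp at ht2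
      exact le_antisymm ht2 ht.1
    rw [this]
    simpa using hs
  | succ j ih =>
    intro hj t ht ht2
    have ih' := ih (by omega)
    set X : ℝ := X0 / 2 ^ j with hX
    have h2j : (0:ℝ) < 2 ^ j := by positivity
    have hXX0 : X ≤ X0 := by
      rw [hX]
      apply div_le_self
      · have : 0 < 2 ^ m * Y := by positivity
        linarith
      · exact one_le_pow₀ (by norm_num)
    have hXge : 2 * Y ≤ X := by
      rw [hX, le_div_iff₀ h2j]
      have h3 : (2:ℝ) ^ (j+1) ≤ 2 ^ m := pow_le_pow_right₀ (by norm_num) hj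
      have h4 : 2 * Y * 2 ^ j = 2 ^ (j+1) * Y := by ring
      rw [h4]
      have : (2:ℝ) ^ (j+1) * Y ≤ 2 ^ m * Y := mul_le_mul_of_nonneg_right h3 (by linarith)
      linarith
    have hX6 : 6 ≤ X := by linarith
    have e1 : X0 / 2 ^ (j+1) = X / 2 := by
      rw [hX, pow_succ, div_div]
    rw [e1]
    by_cases hcase : t ≤ s + j * (1 / (8 * C * L))
    · have h5 := ih' t ht hcase
      apply h5.trans
      apply Real.exp_le_exp.mpr
      linarith
    · push Not at hcase
      set a := s + j * (1 / (8 * C * L)) with ha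
      have haI : a ∈ Icc s T := ⟨by
        rw [ha]
        have : 0 ≤ (j:ℝ) * (1 / (8 * C * L)) := by positivity
        linarith, hcase.le.trans ht.2⟩
      have hFa : F a ≤ Real.exp (-X) := ih' a haI le_rfl
      have hta : t - a ≤ 1 / (8 * C * L) := by
        rw [ha]
        push_cast at ht2
        linarith
      obtain ⟨G, hG1, hG2⟩ := h X (by linarith) hXX0
      have hg := gronwall_const (F := F) (G := G) (a := a) (b := T) (c := C * X * L)
        (δ := Real.exp (-X)) (M := M) (by positivity) (Real.exp_pos _)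
        (fun r hr => hFM r ⟨haI.1.trans hr.1, hr.2⟩)
        (fun r hr => (hG1 r ⟨haI.1.trans hr.1, hr.2⟩).1)
        (fun r hr => (hG1 r ⟨haI.1.trans hr.1, hr.2⟩).2)
        (fun b hb => hG2 a haI b hb) t ⟨hcase.le, ht.2⟩
      rw [max_eq_right hFa] at hg
      have h6 : F t ≤ 2 * Real.exp (-X) * Real.exp (2 * (C * X * L * (t - a))) :=
        (le_max_left _ _).trans hg
      have h7 : 2 * (C * X * L * (t - a)) ≤ X / 4 := by
        have h8 : C * X * L * (t - a) ≤ C * X * L * (1 / (8 * C * L)) :=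
          mul_le_mul_of_nonneg_left hta (by positivity)
        have h9 : C * X * L * (1 / (8 * C * L)) = X / 8 := by field_simp
        linarith
      have h8 : (2:ℝ) ≤ Real.exp (X / 4) := by
        have := Real.add_one_le_exp (X / 4)
        linarith
      calc F t ≤ 2 * Real.exp (-X) * Real.exp (2 * (C * X * L * (t - a))) := h6
        _ ≤ Real.exp (X / 4) * Real.exp (-X) * Real.exp (X / 4) := by
            apply mul_le_mul
            · exact mul_le_mul_of_nonneg_right h8 (Real.exp_pos _).le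
            · exact Real.exp_le_exp.mpr h7
            · exact (Real.exp_pos _).le
            · positivity
        _ = Real.exp (-(X / 2)) := by
            rw [← Real.exp_add, ← Real.exp_add]
            congr 1
            ring


/-- With `F s` very small, `F` stays small for a time `ℓ = 1 / (64 C)` not depending on `X0`. -/
theorem advance' {F : ℝ → ℝ} {T M C s X0 Y : ℝ} (hC : 1 ≤ C) (hY : 3 ≤ Y)
    (hFM : ∀ r ∈ Icc s T, F r ≤ M) (hX0 : 256 * Y ^ 2 ≤ X0)
    (h : ∀ X, 2 ≤ X → X ≤ X0 → ∃ G : ℝ → ℝ,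
      (∀ r ∈ Icc s T, 0 ≤ G r ∧ G r ≤ C * X * Real.log X0 * max (F r) (Real.exp (-X))) ∧
      ∀ a ∈ Icc s T, ∀ b ∈ Icc a T, F b ≤ F a + ∫ r in a..b, G r)
    (hs : F s ≤ Real.exp (-X0)) :
    ∀ t ∈ Icc s T, t ≤ s + 1 / (64 * C) → F t ≤ Real.exp (-Y) := by
  intro t ht ht2
  have hX0pos : 0 < X0 := by nlinarith
  have hL : 1 ≤ Real.log X0 := by
    rw [Real.le_log_iff_exp_le hX0pos]
    have := Real.exp_one_lt_d9
    nlinarith
  -- number of steps
  set L := Real.log X0 with hLdef
  obtain ⟨m, hm1, hm2⟩ : ∃ m : ℕ, 2 ^ m * Y ≤ X0 ∧ L / 8 ≤ m := by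
    refine ⟨⌈L / 8⌉₊, ?_, Nat.le_ceil _⟩
    have h1 : (⌈L / 8⌉₊ : ℝ) < L / 8 + 1 := Nat.ceil_lt_add_one (by positivity)
    have h2 : (2:ℝ) ^ (⌈L / 8⌉₊) ≤ Real.exp (L / 8 + 1) := by
      have h3 : (2:ℝ) ≤ Real.exp 1 := by
        have := Real.exp_one_gt_d9
        linarith
      calc (2:ℝ) ^ (⌈L / 8⌉₊) ≤ (Real.exp 1) ^ (⌈L / 8⌉₊) := pow_le_pow_left₀ (by norm_num) h3 _
        _ = Real.exp (⌈L / 8⌉₊ * 1) := by rw [Real.exp_nat_mul]
        _ ≤ Real.exp (L / 8 + 1) := by
            apply Real.exp_le_exp.mpr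
            linarith
    have h3 : Real.exp (L / 8 + 1) ≤ Real.sqrt X0 * 3 := by
      rw [Real.exp_add]
      apply mul_le_mul
      · rw [← Real.exp_log (Real.sqrt_pos.mpr hX0pos), Real.log_sqrt hX0pos.le]
        apply Real.exp_le_exp.mpr
        rw [← hLdef]
        linarith
      · have := Real.exp_one_lt_d9
        linarith
      · exact (Real.exp_pos _).le
      · exact Real.sqrt_nonneg _
    have h4 : 16 * Y ≤ Real.sqrt X0 := by
      apply Real.le_sqrt_of_sq_le
      nlinarith
    have h5 := Real.mul_self_sqrt hX0pos.le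
    have h6 : (2:ℝ) ^ (⌈L / 8⌉₊) * Y ≤ (Real.sqrt X0 * 3) * (Real.sqrt X0 / 16) := by
      apply mul_le_mul (h2.trans h3)
      · linarith
      · linarith
      · positivity
    nlinarith
  have h1 := advance hC hL hY hFM h hs m hm1 m le_rfl t ht ?_
  · apply h1.trans
    apply Real.exp_le_exp.mpr
    have h2m : (0:ℝ) < 2 ^ m := by positivity
    have : Y ≤ X0 / 2 ^ m := by
      rw [le_div_iff₀ h2m]
      linarith
    linarith
  · apply ht2.trans
    have h2 : 1 / (64 * C) ≤ m * (1 / (8 * C * L)) := by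
      have h3 : (L / 8) * (1 / (8 * C * L)) ≤ m * (1 / (8 * C * L)) :=
        mul_le_mul_of_nonneg_right hm2 (by positivity)
      have h4 : (L / 8) * (1 / (8 * C * L)) = 1 / (64 * C) := by
        field_simp
        norm_num
      linarith
    linarith

theorem le_zero_of_exp {x : ℝ} (h : ∀ Y : ℝ, 3 ≤ Y → x ≤ Real.exp (-Y)) : x ≤ 0 := by
  have h1 : Tendsto (fun Y : ℝ => Real.exp (-Y)) atTop (𝓝 0) := Real.tendsto_exp_neg_atTop_nhds_zero
  apply ge_of_tendsto h1
  filter_upwards [eventually_ge_atTop 3] with Y hY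
  exact h Y hY

/-- superpolynomial smallness at small times -/
theorem small_time {F : ℝ → ℝ} {T M : ℝ} (hT : 0 < T)
    (hFM : ∀ r ∈ Icc 0 T, F r ≤ M)
    (hA : ∀ k : ℕ, ∃ C s0 : ℝ, 0 < s0 ∧ ∃ G : ℝ → ℝ,
      (∀ r ∈ Ioc 0 s0, 0 ≤ G r ∧ G r ≤ C * r ^ (-(3/4) : ℝ) * max (F r) (r ^ k)) ∧
      ∀ t ∈ Icc 0 s0, F t ≤ ∫ r in (0:ℝ)..t, G r) (k : ℕ) :
    ∃ C s0 : ℝ, 0 < s0 ∧ s0 ≤ 1 ∧ s0 ≤ T ∧ ∀ t ∈ Ioc 0 s0, F t ≤ C * t ^ k := by
  obtain ⟨C, s1, hs1, G, hG1, hG2⟩ := hA k
  set s0 := min (min s1 1) T with hs0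
  have hs0pos : 0 < s0 := lt_min (lt_min hs1 one_pos) hT
  have hs01 : s0 ≤ s1 := (min_le_left _ _).trans (min_le_left _ _)
  have hs0one : s0 ≤ 1 := (min_le_left _ _).trans (min_le_right _ _)
  have hs0T : s0 ≤ T := min_le_right _ _
  suffices key : ∀ j : ℕ, j ≤ 4 * k → ∃ D : ℝ, 0 ≤ D ∧ ∀ t ∈ Ioc 0 s0, F t ≤ D * t ^ ((j:ℝ) / 4) by
    obtain ⟨D, _, hD⟩ := key (4 * k) le_rfl
    refine ⟨D, s0, hs0pos, hs0one, hs0T, fun t ht => ?_⟩
    have h5 := hD t ht
    have e : ((4 * k : ℕ):ℝ) / 4 = (k:ℝ) := by push_cast; ring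
    rw [e, Real.rpow_natCast] at h5
    exact h5
  · have key : ∀ j : ℕ, j ≤ 4 * k → ∃ D : ℝ, 0 ≤ D ∧ ∀ t ∈ Ioc 0 s0, F t ≤ D * t ^ ((j:ℝ) / 4) := by
      intro j
      induction j with
      | zero =>
        intro _
        refine ⟨max M 0, le_max_right _ _, fun t ht => ?_⟩
        simp only [Nat.cast_zero, zero_div, Real.rpow_zero, mul_one]
        exact (hFM t ⟨ht.1.le, ht.2.trans hs0T⟩).trans (le_max_left _ _)
      | succ j ih =>
        intro hj
        obtain ⟨D, hD0, hD⟩ := ih (by omega)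
        have hjk : (j:ℝ) / 4 ≤ k := by
          rw [div_le_iff₀ (by norm_num)]
          have : j ≤ k * 4 := by omega
          exact_mod_cast this
        refine ⟨|C| * (D + 1) / (((j + 1 : ℕ):ℝ) / 4), by positivity, fun t ht => ?_⟩
        have h1 := hG2 t ⟨ht.1.le, ht.2.trans hs01⟩
        have hexp : (-1:ℝ) < (j:ℝ) / 4 - 3 / 4 := by
          have : (0:ℝ) ≤ j := Nat.cast_nonneg j
          linarith
        have h2 : ∫ r in (0:ℝ)..t, G r ≤
            ∫ r in (0:ℝ)..t, |C| * (D + 1) * r ^ ((j:ℝ) / 4 - 3 / 4) := by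
          apply intInt_mono_nonneg ht.1.le
          · intro r hr
            exact (hG1 r ⟨hr.1, (hr.2.trans ht.2).trans hs01⟩).1
          · intro r hr
            have hr0 : r ∈ Ioc 0 s0 := ⟨hr.1, hr.2.trans ht.2⟩
            have hr1 : r ≤ 1 := hr0.2.trans hs0one
            apply (hG1 r ⟨hr.1, (hr.2.trans ht.2).trans hs01⟩).2.trans
            have h3 : max (F r) (r ^ k) ≤ (D + 1) * r ^ ((j:ℝ) / 4) := by
              have h4 : (0:ℝ) ≤ r ^ ((j:ℝ) / 4) := (Real.rpow_pos_of_pos hr.1 _).le
              apply max_le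
              · have := hD r hr0
                nlinarith
              · have h5 : r ^ k ≤ r ^ ((j:ℝ) / 4) := by
                  rw [← Real.rpow_natCast]
                  exact Real.rpow_le_rpow_of_exponent_ge hr.1 hr1 hjk
                have h6 : 0 ≤ D * r ^ ((j:ℝ) / 4) := mul_nonneg hD0 h4
                linarith
            have h7 : (0:ℝ) ≤ r ^ (-(3/4) : ℝ) := (Real.rpow_pos_of_pos hr.1 _).le
            calc C * r ^ (-(3/4) : ℝ) * max (F r) (r ^ k)
                ≤ |C| * r ^ (-(3/4) : ℝ) * max (F r) (r ^ k) := by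
                  apply mul_le_mul_of_nonneg_right
                  · exact mul_le_mul_of_nonneg_right (le_abs_self C) h7
                  · exact (pow_pos hr.1 k).le.trans (le_max_right _ _)
              _ ≤ |C| * r ^ (-(3/4) : ℝ) * ((D + 1) * r ^ ((j:ℝ) / 4)) :=
                  mul_le_mul_of_nonneg_left h3 (mul_nonneg (abs_nonneg _) h7)
              _ = |C| * (D + 1) * r ^ ((j:ℝ) / 4 - 3 / 4) := by
                  rw [sub_eq_add_neg, Real.rpow_add hr.1]
                  ring
          · apply IntervalIntegrable.const_mul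
            exact intervalIntegral.intervalIntegrable_rpow' hexp
        have h3 : ∫ r in (0:ℝ)..t, |C| * (D + 1) * r ^ ((j:ℝ) / 4 - 3 / 4) =
            |C| * (D + 1) / (((j + 1 : ℕ):ℝ) / 4) * t ^ (((j + 1 : ℕ):ℝ) / 4) := by
          rw [intervalIntegral.integral_const_mul, integral_rpow (Or.inl hexp)]
          have e1 : (j:ℝ) / 4 - 3 / 4 + 1 = ((j + 1 : ℕ):ℝ) / 4 := by push_cast; ring
          rw [e1, Real.zero_rpow (by positivity)]
          ring
        linarith
    exact key

/-- later stages: start from zero, rate `C X log X` -/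
theorem closing_zero {F : ℝ → ℝ} {T M C s0 : ℝ} (hC : 1 ≤ C)
    (hFM : ∀ r ∈ Icc s0 T, F r ≤ M) (hs0 : F s0 ≤ 0)
    (h : ∀ X : ℝ, 2 ≤ X → ∃ G : ℝ → ℝ,
      (∀ r ∈ Icc s0 T, 0 ≤ G r ∧ G r ≤ C * (X * Real.log X) * max (F r) (Real.exp (-X))) ∧
      ∀ a ∈ Icc s0 T, ∀ b ∈ Icc a T, F b ≤ F a + ∫ r in a..b, G r) :
    ∀ t ∈ Icc s0 T, F t ≤ 0 := by
  set l : ℝ := 1 / (64 * C) with hl
  have hl0 : 0 < l := by positivity
  have key : ∀ n : ℕ, ∀ t ∈ Icc s0 T, t ≤ s0 + n * l → F t ≤ 0 := by
    intro n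
    induction n with
    | zero =>
      intro t ht ht2
      have : t = s0 := by
        simp at ht2
        exact le_antisymm ht2 ht.1
      rw [this]; exact hs0
    | succ n ih =>
      intro t ht ht2
      by_cases hcase : t ≤ s0 + n * l
      · exact ih t ht hcase
      · push Not at hcase
        set s := s0 + n * l with hs
        have hsI : s ∈ Icc s0 T := ⟨by
          rw [hs]
          have : 0 ≤ (n:ℝ) * l := by positivity
          linarith, hcase.le.trans ht.2⟩
        have hFs : F s ≤ 0 := ih s hsI le_rfl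
        apply le_zero_of_exp
        intro Y hY
        refine advance' (s := s) (T := T) (M := M) (X0 := 256 * Y ^ 2) hC hY
          (fun r hr => hFM r ⟨hsI.1.trans hr.1, hr.2⟩) le_rfl ?_
          (hFs.trans (Real.exp_pos _).le) t ⟨hcase.le, ht.2⟩ ?_
        · intro X hX hX2
          obtain ⟨G, hG1, hG2⟩ := h X hX
          refine ⟨G, fun r hr => ?_, fun a ha b hb => hG2 a ⟨hsI.1.trans ha.1, ha.2⟩ b hb⟩
          obtain ⟨h1, h2⟩ := hG1 r ⟨hsI.1.trans hr.1, hr.2⟩
          refine ⟨h1, h2.trans ?_⟩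
          apply mul_le_mul_of_nonneg_right _ ((Real.exp_pos (-X)).le.trans (le_max_right _ _))
          have h3 : Real.log X ≤ Real.log (256 * Y ^ 2) := Real.log_le_log (by linarith) hX2
          have h4 : X * Real.log X ≤ X * Real.log (256 * Y ^ 2) :=
            mul_le_mul_of_nonneg_left h3 (by linarith)
          calc C * (X * Real.log X) ≤ C * (X * Real.log (256 * Y ^ 2)) :=
                mul_le_mul_of_nonneg_left h4 (by linarith)
            _ = C * X * Real.log (256 * Y ^ 2) := by ring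
        · rw [← hl, hs]
          push_cast at ht2
          linarith
  intro t ht
  obtain ⟨n, hn⟩ := exists_nat_ge ((T - s0) / l)
  apply key n t ht
  rw [div_le_iff₀ hl0] at hn
  linarith [ht.2]

set_option maxHeartbeats 1600000 in
/-- MAIN closing lemma for the first stage. -/
theorem closing_first {F : ℝ → ℝ} {T M C : ℝ} (hT : 0 < T) (hC : 1 ≤ C)
    (hFM : ∀ r ∈ Icc 0 T, F r ≤ M)
    (hA : ∀ k : ℕ, ∃ C s0 : ℝ, 0 < s0 ∧ ∃ G : ℝ → ℝ,
      (∀ r ∈ Ioc 0 s0, 0 ≤ G r ∧ G r ≤ C * r ^ (-(3/4) : ℝ) * max (F r) (r ^ k)) ∧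
      ∀ t ∈ Icc 0 s0, F t ≤ ∫ r in (0:ℝ)..t, G r)
    (hB : ∀ X : ℝ, 2 ≤ X → ∃ G : ℝ → ℝ,
      (∀ r ∈ Ioc 0 T, 0 ≤ G r ∧
        G r ≤ C * (1 / r + X + r * (X * Real.log X)) * max (F r) (Real.exp (-X))) ∧
      ∀ a ∈ Ioc 0 T, ∀ b ∈ Icc a T, F b ≤ F a + ∫ r in a..b, G r) :
    ∀ t ∈ Ioc 0 T, F t ≤ 0 := by
  -- a constant controlling the kernel away from the singularity
  set C1 : ℝ := C * (2 + T) with hC1
  have hC1ge : 1 ≤ C1 := by
    rw [hC1]
    nlinarith
  set l : ℝ := 1 / (64 * C1) with hl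
  have hl0 : 0 < l := by positivity
  -- Phase 1: `F = 0` on `(0, l]`
  have phase1 : ∀ t ∈ Ioc 0 T, t ≤ l → F t ≤ 0 := by
    intro t ht htl
    apply le_zero_of_exp
    intro Y hY
    obtain ⟨k, hk⟩ := exists_nat_ge (64 * C)
    have hkpos : (0:ℝ) < k := by linarith
    obtain ⟨D, s0, hs0, hs01, hs0T, hD⟩ := small_time hT hFM hA k
    -- choose `X` large
    have hev : ∀ᶠ X : ℝ in atTop, 4 ≤ X ∧ 512 * Y ^ 2 ≤ X ∧ 48 * C ≤ Real.log X ∧
        1 / t ≤ Real.log X ∧ D ≤ Real.exp X ∧ Real.exp (-(2 * X / k)) ≤ s0 ∧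
        Real.log X * Real.exp (-(2 * X / k)) ≤ 1 ∧ 16 ≤ X := by
      have hlog : Tendsto Real.log atTop atTop := Real.tendsto_log_atTop
      have hexp : Tendsto (fun X : ℝ => Real.exp (-(2 * X / k))) atTop (𝓝 0) := by
        apply Real.tendsto_exp_neg_atTop_nhds_zero.comp
        have : Tendsto (fun X : ℝ => (2 / k) * X) atTop atTop :=
          Tendsto.const_mul_atTop (by positivity) tendsto_id
        refine this.congr (fun X => ?_)
        ring
      have h7 : Tendsto (fun X : ℝ => Real.log X * Real.exp (-(2 * X / k))) atTop (𝓝 0) := by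
        have hx : Tendsto (fun X : ℝ => X * Real.exp (-(2 / k) * X)) atTop (𝓝 0) := by
          have := Real.tendsto_pow_mul_exp_neg_atTop_nhds_zero 1
          have h8 : Tendsto (fun X : ℝ => (2 / k) * X) atTop atTop :=
            Tendsto.const_mul_atTop (by positivity) tendsto_id
          have h9 := (this.comp h8).const_mul ((k:ℝ) / 2)
          simp only [mul_zero] at h9
          refine h9.congr (fun X => ?_)
          simp only [Function.comp, pow_one]
          have : (k:ℝ) ≠ 0 := hkpos.ne'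
          field_simp
        apply squeeze_zero' _ _ hx
        · filter_upwards [eventually_ge_atTop 1] with X hX
          exact mul_nonneg (Real.log_nonneg hX) (Real.exp_pos _).le
        · filter_upwards [eventually_ge_atTop 1] with X hX
          have h8 : Real.log X ≤ X := (Real.log_le_sub_one_of_pos (by linarith)).trans (by linarith)
          have e : -(2 * X / k) = -(2 / k) * X := by ring
          rw [e]
          exact mul_le_mul_of_nonneg_right h8 (Real.exp_pos _).le
      filter_upwards [eventually_ge_atTop 4, eventually_ge_atTop (512 * Y ^ 2),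
        hlog.eventually_ge_atTop (48 * C), hlog.eventually_ge_atTop (1 / t),
        Real.tendsto_exp_atTop.eventually_ge_atTop D, hexp.eventually (ge_mem_nhds hs0),
        h7.eventually (ge_mem_nhds one_pos), eventually_ge_atTop 16]
        with X a1 a2 a3 a4 a5 a6 a7 a8
      exact ⟨a1, a2, a3, a4, a5, a6, a7, a8⟩
    obtain ⟨X, hX4, hXY, hXC, hXt, hXD, hXs0, hXlog, hX16⟩ := hev.exists
    set L := Real.log X with hLdef
    have hL48 : 48 ≤ L := by nlinarith
    have hLpos : 0 < L := by linarith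
    set θ := Real.exp (-(2 * X / k)) with hθ
    have hθpos : 0 < θ := Real.exp_pos _
    set s1 : ℝ := 1 / L with hs1
    have hs1pos : 0 < s1 := by positivity
    have hs1t : s1 ≤ t := by
      rw [hs1, div_le_iff₀ hLpos]
      have h1 := ht.1
      rw [div_le_iff₀ h1] at hXt
      linarith
    have hθs1 : θ ≤ s1 := by
      rw [hs1, le_div_iff₀ hLpos]
      linarith
    have hs1T : s1 ≤ T := hs1t.trans ht.2
    have hθT : θ ≤ T := hθs1.trans hs1T
    have hFθ : F θ ≤ Real.exp (-X) := by
      have h1 := hD θ ⟨hθpos, hXs0⟩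
      have h2 : θ ^ k = Real.exp (-(2 * X)) := by
        rw [hθ, ← Real.exp_nat_mul]
        congr 1
        field_simp
      rw [h2] at h1
      have h3 : D * Real.exp (-(2 * X)) ≤ Real.exp X * Real.exp (-(2 * X)) :=
        mul_le_mul_of_nonneg_right hXD (Real.exp_pos _).le
      rw [← Real.exp_add] at h3
      have e : X + -(2 * X) = -X := by ring
      rw [e] at h3
      exact h1.trans h3
    -- first step
    obtain ⟨G, hG1, hG2⟩ := hB X (by linarith)
    have hXL : 0 ≤ X * L := by positivity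
    have hstep := gronwall_gen (F := F) (G := G)
      (K := fun r => C * (1 / r + X + r * (X * L)))
      (κ := fun r => C * (Real.log r - Real.log θ + X * (r - θ) + (r ^ 2 - θ ^ 2) / 2 * (X * L)))
      (a := θ) (b := s1) (δ := Real.exp (-X)) (M := M) (Real.exp_pos _)
      (fun r hr => hFM r ⟨hθpos.le.trans hr.1, hr.2.trans hs1T⟩)
      (fun r hr => by
        have hr0 : 0 < r := hθpos.trans_le hr.1
        positivity)
      (by
        apply ContinuousOn.mul continuousOn_const
        apply ContinuousOn.add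
        · apply ContinuousOn.add _ continuousOn_const
          apply ContinuousOn.div continuousOn_const continuousOn_id
          intro r hr
          exact (hθpos.trans_le hr.1).ne'
        · exact (continuous_id.mul continuous_const).continuousOn)
      (fun r hr => by
        have hr0 : r ≠ 0 := (hθpos.trans_le hr.1).ne'
        have h1 := Real.hasDerivAt_log hr0
        have h2 : HasDerivAt (fun r : ℝ => r ^ 2) (2 * r) r := by
          simpa using hasDerivAt_pow 2 r
        have h3 : HasDerivAt (fun r : ℝ => X * (r - θ)) (X * 1) r :=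
          ((hasDerivAt_id' r).sub_const θ).const_mul X
        have h4 : HasDerivAt (fun r : ℝ => (r ^ 2 - θ ^ 2) / 2 * (X * L)) (2 * r / 2 * (X * L)) r :=
          ((h2.sub_const (θ ^ 2)).div_const 2).mul_const (X * L)
        have h5 := (((h1.sub_const (Real.log θ)).add h3).add h4).const_mul C
        refine h5.congr_deriv ?_
        field_simp)
      (by simp)
      (fun r hr => (hG1 r ⟨hθpos.trans_le hr.1, hr.2.trans hs1T⟩).1)
      (fun r hr => (hG1 r ⟨hθpos.trans_le hr.1, hr.2.trans hs1T⟩).2)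
      (fun b hb => hG2 θ ⟨hθpos, hθT⟩ b ⟨hb.1, hb.2.trans hs1T⟩) s1 ⟨hθs1, le_rfl⟩
    rw [max_eq_right hFθ] at hstep
    have hκ : 2 * (C * (Real.log s1 - Real.log θ + X * (s1 - θ) + (s1 ^ 2 - θ ^ 2) / 2 * (X * L)))
        ≤ X / 4 := by
      have h1 : Real.log s1 ≤ 0 := by
        apply Real.log_nonpos hs1pos.le
        rw [hs1, div_le_one hLpos]
        linarith
      have h2 : Real.log θ = -(2 * X / k) := by rw [hθ, Real.log_exp]
      have h3 : X * (s1 - θ) ≤ X / L := by
        have : X * (s1 - θ) ≤ X * s1 := mul_le_mul_of_nonneg_left (by linarith) (by linarith)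
        rw [hs1] at this
        calc X * (s1 - θ) ≤ X * (1 / L) := this
          _ = X / L := by ring
      have h4 : (s1 ^ 2 - θ ^ 2) / 2 * (X * L) ≤ X / L := by
        have h5 : (s1 ^ 2 - θ ^ 2) / 2 ≤ s1 ^ 2 := by nlinarith [sq_nonneg θ, sq_nonneg s1]
        have h6 : (s1 ^ 2 - θ ^ 2) / 2 * (X * L) ≤ s1 ^ 2 * (X * L) :=
          mul_le_mul_of_nonneg_right h5 hXL
        have h7 : s1 ^ 2 * (X * L) = X / L := by
          rw [hs1]
          field_simp
        linarith
      have h5 : C * (2 * X / k) ≤ X / 32 := by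
        rw [mul_div_assoc', div_le_div_iff₀ hkpos (by norm_num)]
        nlinarith
      have h6 : C * (X / L) ≤ X / 48 := by
        rw [mul_div_assoc', div_le_div_iff₀ hLpos (by norm_num)]
        nlinarith
      have h7 : C * (Real.log s1 - Real.log θ + X * (s1 - θ) + (s1 ^ 2 - θ ^ 2) / 2 * (X * L)) ≤
          C * (2 * X / k + X / L + X / L) := by
        apply mul_le_mul_of_nonneg_left _ (by linarith)
        rw [h2]
        linarith
      have h8 : C * (2 * X / k + X / L + X / L) = C * (2 * X / k) + C * (X / L) + C * (X / L) := by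
        ring
      linarith
    have hFs1 : F s1 ≤ Real.exp (-(X / 2)) := by
      have h1 : F s1 ≤ 2 * Real.exp (-X) * Real.exp (X / 4) :=
        ((le_max_left _ _).trans hstep).trans
          (mul_le_mul_of_nonneg_left (Real.exp_le_exp.mpr hκ) (by positivity))
      have h2 : (2:ℝ) ≤ Real.exp (X / 4) := by
        have := Real.add_one_le_exp (X / 4)
        linarith
      calc F s1 ≤ 2 * Real.exp (-X) * Real.exp (X / 4) := h1
        _ ≤ Real.exp (X / 4) * Real.exp (-X) * Real.exp (X / 4) := by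
            apply mul_le_mul_of_nonneg_right _ (Real.exp_pos _).le
            exact mul_le_mul_of_nonneg_right h2 (Real.exp_pos _).le
        _ = Real.exp (-(X / 2)) := by
            rw [← Real.exp_add, ← Real.exp_add]
            congr 1
            ring
    -- second step
    have hX2 : (0:ℝ) < X / 2 := by linarith
    have hlog2 : L ≤ 2 * Real.log (X / 2) := by
      rw [Real.log_div (by linarith) (by norm_num), ← hLdef]
      have h1 := Real.log_two_lt_d9
      linarith
    refine advance' (s := s1) (T := T) (M := M) (X0 := X / 2) hC1ge hY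
      (fun r hr => hFM r ⟨hs1pos.le.trans hr.1, hr.2⟩) (by linarith) ?_ hFs1 t ⟨hs1t, ht.2⟩
      (by rw [← hl]; linarith)
    intro X' hX' hX'2
    obtain ⟨G', hG'1, hG'2⟩ := hB X' hX'
    refine ⟨G', fun r hr => ?_, fun a ha b hb => hG'2 a ⟨hs1pos.trans_le ha.1, ha.2⟩ b hb⟩
    obtain ⟨h1, h2⟩ := hG'1 r ⟨hs1pos.trans_le hr.1, hr.2⟩
    refine ⟨h1, h2.trans ?_⟩
    apply mul_le_mul_of_nonneg_right _ ((Real.exp_pos (-X')).le.trans (le_max_right _ _))
    set L' := Real.log (X / 2) with hL'
    have hL'1 : 24 ≤ L' := by linarith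
    have hr0 : 0 < r := hs1pos.trans_le hr.1
    have h3 : 1 / r ≤ X' * L' := by
      have h4 : 1 / r ≤ 1 / s1 := one_div_le_one_div_of_le hs1pos hr.1
      have h5 : 1 / s1 = L := by rw [hs1]; field_simp
      nlinarith
    have h4 : X' ≤ X' * L' := by nlinarith
    have h5 : Real.log X' ≤ L' := Real.log_le_log (by linarith) hX'2
    have h6 : r * (X' * Real.log X') ≤ T * (X' * L') := by
      apply mul_le_mul hr.2 _ _ hT.le
      · exact mul_le_mul_of_nonneg_left h5 (by linarith)
      · exact mul_nonneg (by linarith) (Real.log_nonneg (by linarith))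
    calc C * (1 / r + X' + r * (X' * Real.log X')) ≤ C * (X' * L' + X' * L' + T * (X' * L')) := by
          apply mul_le_mul_of_nonneg_left _ (by linarith)
          linarith
      _ = C1 * X' * L' := by rw [hC1]; ring
  -- Phase 2
  by_cases hTl : T ≤ l
  · intro t ht
    exact phase1 t ht (ht.2.trans hTl)
  · push Not at hTl
    have hFl : F l ≤ 0 := phase1 l ⟨hl0, hTl.le⟩ le_rfl
    have hclose : ∀ t ∈ Icc l T, F t ≤ 0 := by
      refine closing_zero (C := C * (1 / l + 2 + T)) (M := M) (by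
          have : 0 < 1 / l := by positivity
          nlinarith)
        (fun r hr => hFM r ⟨hl0.le.trans hr.1, hr.2⟩) hFl ?_
      intro X hX
      obtain ⟨G, hG1, hG2⟩ := hB X hX
      refine ⟨G, fun r hr => ?_, fun a ha b hb => hG2 a ⟨hl0.trans_le ha.1, ha.2⟩ b hb⟩
      obtain ⟨h1, h2⟩ := hG1 r ⟨hl0.trans_le hr.1, hr.2⟩
      refine ⟨h1, h2.trans ?_⟩
      apply mul_le_mul_of_nonneg_right _ ((Real.exp_pos (-X)).le.trans (le_max_right _ _))
      have hlog : 1 / 2 ≤ Real.log X := by
        have h3 : Real.log 2 ≤ Real.log X := Real.log_le_log (by norm_num) hX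
        have := Real.log_two_gt_d9
        linarith
      have hXl : 1 ≤ X * Real.log X := by nlinarith
      have h3 : 1 / r ≤ 1 / l := one_div_le_one_div_of_le hl0 hr.1
      have h4 : 1 / r ≤ 1 / l * (X * Real.log X) := by
        have : 0 < 1 / l := by positivity
        nlinarith
      have h5 : X ≤ 2 * (X * Real.log X) := by nlinarith
      have h6 : r * (X * Real.log X) ≤ T * (X * Real.log X) :=
        mul_le_mul_of_nonneg_right hr.2 (by linarith)
      calc C * (1 / r + X + r * (X * Real.log X)) ≤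
          C * (1 / l * (X * Real.log X) + 2 * (X * Real.log X) + T * (X * Real.log X)) := by
            apply mul_le_mul_of_nonneg_left _ (by linarith)
            linarith
        _ = C * (1 / l + 2 + T) * (X * Real.log X) := by ring
    intro t ht
    rcases le_total t l with h | h
    · exact phase1 t ht h
    · exact hclose t ⟨h, ht.2⟩

end Crest.Agent.H14
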